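import Vale.Agent.P207.N3.H440.Gra2

/-!
# P207, line N3: the solutions of the slope equation on `[0, t]`

`ode_graph`: the field `ode` of 76's `In3`: the end point `Exp (φ_t x) (0, u t)` of a small solution
of the slope equation lies on the geodesic `τ ↦ Exp y (τ • W)`, `y` the frame `x` transported to
`Exp x (0, u 0)`. `near_graph`: the input of the field `W_near` of `Dir`.
-/

open scoped Manifold ContDiff ENNReal Topology unitInterval
open Bundle MeasureTheory Set Filter Topology Metric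

noncomputable section

set_option maxSynthPendingDepth 3
set_option linter.unusedSectionVars false

namespace Vale.Agent.P207.N3.H440

open Vale.Agent.P255 (RMetric coefIn Gam Riem IsGeo Npc ExpSys toMetric geo expg cc trans
  IsGeodesic IsGeodesicOn coefL chris chrisB IsMetricOn covD isExp_expg)
open Vale.Agent.P207 Vale.Agent.P207.Q Vale.Agent.P207.Q.Fl
open Vale.Agent.P207.N3.H465 (Deck PB)
open Vale.Agent.P207.N3.H566 (XF lift f_lift hflow flow_eq_hflow continuous_lift lift_rot Exp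
  lift_add lift_zero)
open Vale.Agent.P207.N3.H747 (fl Lf Fp Lc Fc src DF dir CH TubeR tube ff pregeo psm_CH)
open Vale.Agent.P207.N3.H76 (pk tl)
open Vale.Agent.P207.N3.H908 (mo mo_val mat)
open Vale.Agent.P207.N3.H248

variable {M : Type} [TopologicalSpace M] [ChartedSpace (EV 3) M] [IsManifold 𝓘(ℝ, EV 3) ∞ M]
  {g : RMetric (EV 3) M} [Nonempty (Fr g)] [CompactSpace M] [T2Space M]
  {p : EV 3 → M} (hp : IsCoveringMap p)

/-- **the end point of a graph over `[0, t]` lies on the geodesic of the initial velocity** -/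
theorem graph_fwd (x : XF g p) {t : ℝ} (ht : 0 < t) {u v : ℝ → E2} {κ : ℝ → ℝ}
    (hu : ∀ s ≤ t, HasDerivWithinAt u (v s) (Iic t) s)
    (hpre : IsPre (mt g) (fun s => Fp g (x.f, pk s (u s))) κ (Iio t))
    (hκ : ContinuousOn κ (Iic t)) {w : EV 3} (hw : w ≠ 0) {a : M}
    (ha : (x.f, pk 0 (u 0)) ∈ src g a)
    (hw' : DF g a (x.f, pk 0 (u 0)) (pk 1 (v 0)) = ∑ i, w i • (Lc g a (x.f, pk 0 (u 0))).2 i) :
    ∃ τ : ℝ, Exp hp (lfx hp x (u 0)) (τ • (‖w‖⁻¹ • w)) = Exp hp (flx hp t x) (pk 0 (u t)) := by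
  have hn : 0 < ‖w‖ := norm_pos_iff.2 hw
  have hζ : ‖‖w‖⁻¹ • w‖ = 1 := by
    rw [norm_smul, norm_inv, norm_norm, inv_mul_cancel₀ hn.ne']
  obtain ⟨B, hB⟩ := H76.exists_rot_e0 hζ
  have he0 : H76.e0 = EuclideanSpace.single (0 : Fin 3) (1 : ℝ) := by
    ext i
    fin_cases i <;> simp [H76.e0]
  have hB' : B (EuclideanSpace.single 0 1) = ‖w‖⁻¹ • w := by rw [← he0]; exact hB
  have huc : ContinuousOn u (Iic t) := fun s hs => (hu s hs).continuousWithinAt
  have hpk : ContinuousOn (fun s => pk 0 (u s)) (Iic t) :=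
    H76.continuous_pk.comp_continuousOn (continuousOn_const.prodMk huc)
  set c : ℝ → EV 3 := fun s => Exp hp (flx hp s x) (pk 0 (u s)) with hc
  have hcc : ContinuousOn c (Iic t) :=
    (continuous_Exp hp).comp_continuousOn
      ((continuous_flx hp x).continuousOn.prodMk hpk)
  have hpc : ∀ s, p (c s) = Fp g (x.f, pk s (u s)) := fun s => p_Exp hp s x (u s)
  -- the continuous extension of `κ`
  set κ' : ℝ → ℝ := fun s => κ (min s t) with hκ'
  have hκc : Continuous κ' :=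
    hκ.comp_continuous (continuous_id.min continuous_const) fun s => mem_Iic.2 (min_le_right _ _)
  have hκe : EqOn κ' κ (Iio t) := fun s hs => by
    have h1 : s ≤ t := le_of_lt hs
    simp only [hκ', min_eq_left h1]
  have hpre' : IsPre (mt g) (fun s => p (c s)) κ' (Iio t) := by
    simp only [hpc]
    exact hpre.congr_kappa hκe
  set y : XF g p := lfx hp x (u 0) with hy
  have hyf : y.f = Lf g (x.f, pk 0 (u 0)) := f_lfx hp x (u 0)
  have h0 : c 0 = (XF.rot (mo B) y).q := by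
    simp only [hc, flx_zero]
    rfl
  have ha' : p (c 0) ∈ (chartAt (EV 3) a).source := by
    rw [hpc]
    exact ha
  have hvel : HasDerivAt (fun s => Fc g a (x.f, pk s (u s)))
      (DF g a (x.f, pk 0 (u 0)) (pk 1 (v 0))) 0 := by
    have h1 : HasDerivAt (fun s => pk s (u s)) (pk 1 (v 0)) 0 := by
      have h2 : HasDerivAt (fun s => (s, u s)) ((1 : ℝ), v 0) 0 :=
        (hasDerivAt_id 0).prodMk ((hu 0 ht.le).hasDerivAt (Iic_mem_nhds ht))
      exact (LinearMap.toContinuousLinearMap H76.pkL).hasFDerivAt.comp_hasDerivAt 0 h2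
    exact (H747.hasFDerivAt_Fc (a := a) (x := x.f) (z := pk 0 (u 0)) ha).comp_hasDerivAt 0 h1
  have hv0 : deriv (cc (E := EV 3) (fun s => p (c s)) a) 0 =
      ‖w‖ • (chF a (XF.rot (mo B) y).f.1).2 0 := by
    have h2 : ‖w‖ • (chF a (XF.rot (mo B) y).f.1).2 0 =
        ∑ i, w i • (Lc g a (x.f, pk 0 (u 0))).2 i := by
      rw [XF.f_rot, chF_rot, Finset.smul_sum]
      refine Finset.sum_congr rfl fun i _ => ?_
      have h3 : (mo B).1 i 0 = (‖w‖⁻¹ • w) i := by
        rw [mo_val, hB']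
      rw [h3, smul_smul, PiLp.smul_apply, smul_eq_mul, mul_inv_cancel_left₀ hn.ne', hyf]
      rfl
    rw [h2, ← hw']
    refine HasDerivAt.deriv (hvel.congr_of_eventuallyEq (Eventually.of_forall fun s => ?_))
    simp only [cc, hpc]
    rfl
  have hrep := rep_cov hp isOpen_Iio ordConnected_Iio (hcc.mono Iio_subset_Iic_self) hpre'
    (mem_Iio.2 ht) h0 hn ha' hv0
  have hth : Continuous (th κ' 0 ‖w‖) :=
    continuous_iff_continuousAt.2 fun s => (hasDerivAt_th' hκc 0 ‖w‖ s).continuousAt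
  refine ⟨th κ' 0 ‖w‖ t, ?_⟩
  -- passage to the end point
  have h1 : ContinuousWithinAt c (Iio t) t := (hcc t (mem_Iic.2 le_rfl)).mono Iio_subset_Iic_self
  have h2 : Continuous fun s : ℝ => Exp hp y (th κ' 0 ‖w‖ s • (‖w‖⁻¹ • w)) :=
    (continuous_Exp hp).comp (continuous_const.prodMk (hth.smul continuous_const))
  have h3 : ∀ s ∈ Iio t, c s = Exp hp y (th κ' 0 ‖w‖ s • (‖w‖⁻¹ • w)) := fun s hs => by
    have h4 := (hrep s hs).2.2.1
    rw [q_lift_rot, hB'] at h4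
    exact h4
  have h5 : Tendsto c (𝓝[<] t) (𝓝 (Exp hp y (th κ' 0 ‖w‖ t • (‖w‖⁻¹ • w)))) := by
    refine ((h2.tendsto t).mono_left nhdsWithin_le_nhds).congr' ?_
    filter_upwards [self_mem_nhdsWithin] with s hs using (h3 s hs).symm
  exact tendsto_nhds_unique h5 h1

/-- **the field `ode` of `In3`** -/
theorem ode_graph {ρ : ℝ} (hT : TubeR g ρ) (S : USys (Fr g) E2) (hφ : S.φ = fl g)
    (hf : S.f = ff g) {ε δ : ℝ} (hδ : δ < ρ) {gs : Fr g → E2 → E2} (hg : S.Slope ε δ gs) :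
    ∃ ε₁, 0 < ε₁ ∧ ε₁ < ε ∧ ∀ x : XF g p, ∀ t ≥ (0 : ℝ), ∀ u : ℝ → E2,
      (∀ s ∈ Icc 0 t, HasDerivWithinAt u (gs (fl g s x.f) (u s)) (Icc 0 t) s) →
      (∀ s ∈ Icc 0 t, ‖u s‖ ≤ ε₁) → ∀ (w : EV 3) (a : M), (x.f, pk 0 (u 0)) ∈ src g a →
      DF g a (x.f, pk 0 (u 0)) (pk 1 (gs x.f (u 0))) =
        ∑ i, w i • (Lc g a (x.f, pk 0 (u 0))).2 i →
      ∃ τ : ℝ, Exp hp (lfx hp x (u 0)) (τ • (‖w‖⁻¹ • w)) = Exp hp (flx hp t x) (pk 0 (u t)) := by
  have hadd : ∀ s t x, S.φ (s + t) x = S.φ s (S.φ t x) := fun s t x => by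
    rw [hφ]; exact H747.fl_add s t x
  obtain ⟨ε₁, h0, h1, -, h2, h3⟩ := glue (S := S) hadd hg
  refine ⟨ε₁, h0, h1, fun x t ht u hu hub w a ha hw' => ?_⟩
  rcases ht.eq_or_lt with rfl | ht0
  · refine ⟨0, ?_⟩
    rw [zero_smul, flx_zero]
    change (lift hp (fun i => (0 : EV 3) i) (lfx hp x (u 0))).q = (lfx hp x (u 0)).q
    have h4 : (fun i => (0 : EV 3) i) = (0 : Fin 3 → ℝ) := rfl
    rw [h4, lift_zero]
  have htt : t ∈ Icc 0 t := ⟨ht, le_rfl⟩
  have hutε : u t ∈ ball (0 : E2) ε := by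
    rw [mem_ball_zero_iff]
    exact (hub t htt).trans_lt h1
  obtain ⟨v, q, hv0, hq0, hv, hq, hb⟩ := hg.exist (S.φ t x.f) (u t) hutε
  have hsol : S.Sol (S.φ t x.f) δ v q := USys.Sol.of_hasDerivAt S hv hq hb
  have hgl := h3 x.f t ht u (by rw [hφ]; exact hu) hub v q hsol hv0
  set U : ℝ → E2 := fun s => v (s - t) with hU
  set Q : ℝ → E2 := fun s => q (s - t) with hQ
  have hφt : ∀ s, S.φ (s - t) (S.φ t x.f) = fl g s x.f := fun s => by
    rw [← hadd, sub_add_cancel, hφ]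
  have hUd : ∀ s ≤ t, HasDerivAt U (Q s) s := fun s hs => by
    have h4 := (hv (s - t) (by linarith)).scomp s ((hasDerivAt_id s).sub_const t)
    rw [one_smul] at h4
    exact h4
  have hQd : ∀ s ≤ t, HasDerivAt Q (ff g (fl g s x.f) (U s, Q s)) s := fun s hs => by
    have h4 := (hq (s - t) (by linarith)).scomp s ((hasDerivAt_id s).sub_const t)
    rw [one_smul, hφt, hf] at h4
    exact h4
  have hUρ : ∀ s ≤ t, ‖U s‖ < ρ := fun s hs =>
    ((le_max_left _ _ : ‖U s‖ ≤ ‖(U s, Q s)‖).trans (hb (s - t) (by linarith))).trans_lt hδ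
  have hU0 : U 0 = u 0 := (hgl 0 ⟨le_rfl, ht⟩).1
  have hUt : U t = u t := (hgl t htt).1
  have hQ0 : Q 0 = gs x.f (u 0) := by
    have h4 := (hgl 0 ⟨le_rfl, ht⟩).2
    rwa [S.φ_zero] at h4
  have hpre : IsPre (mt g) (fun s => Fp g (x.f, pk s (U s))) (kap x.f U Q) (Iio t) :=
    isPre_graph hT x.f isOpen_Iio (fun s hs => hUd s (le_of_lt hs))
      (fun s hs => hQd s (le_of_lt hs)) fun s hs => hUρ s (le_of_lt hs)
  have hκ : ContinuousOn (kap x.f U Q) (Iic t) :=
    continuousOn_kap hT x.f (fun s hs => (hUd s hs).continuousAt.continuousWithinAt)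
      (fun s hs => (hQd s hs).continuousAt.continuousWithinAt) hUρ
  rw [← hU0] at ha hw'
  rw [hU0, ← hQ0, ← hU0] at hw'
  have hz : (pk 0 (U 0) : EV 3) ∈ tube ρ := by
    change ‖tl (pk 0 (U 0))‖ < ρ
    rw [H76.tl_pk]
    exact hUρ 0 ht
  have hw : w ≠ 0 := by
    rintro rfl
    simp only [PiLp.zero_apply, zero_smul, Finset.sum_const_zero] at hw'
    have h4 := hT.DF_injective hz ha (hw'.trans (map_zero _).symm)
    have h5 := congrArg (fun z : EV 3 => z 0) h4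
    simp only [H76.pk_zero, PiLp.zero_apply] at h5
    exact one_ne_zero h5
  obtain ⟨τ, hτ⟩ := graph_fwd hp x ht0 (fun s hs => (hUd s hs).hasDerivWithinAt) hpre hκ hw ha hw'
  rw [hU0, hUt] at hτ
  exact ⟨τ, hτ⟩

end Vale.Agent.P207.N3.H440
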