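import Vale.Agent.P255.Bdl.B2

/-!
# P207, line N3, R6 (F2b): reparametrised geodesics

`IsPre g c κ J`: on the set `J` of times the curve `c` satisfies `∇_{c'} c' = κ c'`.
`IsPre.eq_geodesic`: `c s = γ (θ s)` for a geodesic `γ`, with `θ' = σ = σ₀ exp ∫ κ`.
-/

set_option linter.unusedSectionVars false

open scoped Manifold ContDiff Topology
open Set Filter MeasureTheory

noncomputable section

namespace Vale.Agent.P207.N3.H440

open Vale.Agent.P255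

/-! ### change of time on an interval -/

section Time

variable {J : Set ℝ} {σ κ : ℝ → ℝ} {s₀ s : ℝ}

/-- the primitive of a continuous function on an open interval -/
theorem hasDerivAt_prim {F : Type} [NormedAddCommGroup F] [NormedSpace ℝ F] [CompleteSpace F]
    {f : ℝ → F} (hJ : IsOpen J) (hJ' : J.OrdConnected)
    (hf : ContinuousOn f J) (h0 : s₀ ∈ J) (hs : s ∈ J) :
    HasDerivAt (fun s => ∫ r in s₀..s, f r) (f s) s := by
  have h1 : uIcc s₀ s ⊆ J := hJ'.uIcc_subset h0 hs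
  refine intervalIntegral.integral_hasDerivAt_right ((hf.mono h1).intervalIntegrable) ?_
    (hf.continuousAt (hJ.mem_nhds hs))
  exact hf.stronglyMeasurableAtFilter hJ s hs

/-- the speed -/
def sg (κ : ℝ → ℝ) (s₀ σ₀ s : ℝ) : ℝ := σ₀ * Real.exp (∫ r in s₀..s, κ r)

/-- the new time -/
def th (κ : ℝ → ℝ) (s₀ σ₀ s : ℝ) : ℝ := ∫ r in s₀..s, sg κ s₀ σ₀ r

@[simp] theorem sg_self (κ : ℝ → ℝ) (s₀ σ₀ : ℝ) : sg κ s₀ σ₀ s₀ = σ₀ := by
  simp [sg]

@[simp] theorem th_self (κ : ℝ → ℝ) (s₀ σ₀ : ℝ) : th κ s₀ σ₀ s₀ = 0 := by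
  simp [th]

theorem sg_pos {σ₀ : ℝ} (h : 0 < σ₀) (s : ℝ) : 0 < sg κ s₀ σ₀ s := mul_pos h (Real.exp_pos _)

theorem hasDerivAt_sg (hJ : IsOpen J) (hJ' : J.OrdConnected) (hκ : ContinuousOn κ J)
    (h0 : s₀ ∈ J) (σ₀ : ℝ) (hs : s ∈ J) :
    HasDerivAt (sg κ s₀ σ₀) (κ s * sg κ s₀ σ₀ s) s := by
  have h1 := (hasDerivAt_prim hJ hJ' hκ h0 hs).exp.const_mul σ₀
  refine h1.congr_deriv ?_
  unfold sg
  ring

theorem hasDerivAt_th (hJ : IsOpen J) (hJ' : J.OrdConnected) (hκ : ContinuousOn κ J)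
    (h0 : s₀ ∈ J) (σ₀ : ℝ) (hs : s ∈ J) :
    HasDerivAt (th κ s₀ σ₀) (sg κ s₀ σ₀ s) s :=
  hasDerivAt_prim hJ hJ'
    (fun _ hr => (hasDerivAt_sg hJ hJ' hκ h0 σ₀ hr).continuousAt.continuousWithinAt) h0 hs

/-- the inverse of an increasing change of time -/
theorem exists_inverse {θ : ℝ → ℝ} (hJ : IsOpen J) (hJ' : J.OrdConnected)
    (hθ : ∀ s ∈ J, HasDerivAt θ (σ s) s) (hσ : ∀ s ∈ J, 0 < σ s) :
    IsOpen (θ '' J) ∧ IsPreconnected (θ '' J) ∧ ∃ ρ : ℝ → ℝ, (∀ s ∈ J, ρ (θ s) = s) ∧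
      ∀ t ∈ θ '' J, ρ t ∈ J ∧ θ (ρ t) = t ∧ HasDerivAt ρ (σ (ρ t))⁻¹ t := by
  have hc : ContinuousOn θ J := fun s hs => (hθ s hs).continuousAt.continuousWithinAt
  have hmono : StrictMonoOn θ J := by
    refine strictMonoOn_of_deriv_pos hJ'.convex hc fun s hs => ?_
    rw [hJ.interior_eq] at hs
    rw [(hθ s hs).deriv]
    exact hσ s hs
  have hopen : IsOpen (θ '' J) := by
    rw [isOpen_iff_mem_nhds]
    rintro _ ⟨s, hs, rfl⟩
    obtain ⟨δ, hδ, hb⟩ := Metric.isOpen_iff.1 hJ s hs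
    have ha : s - δ / 2 ∈ J := hb (by rw [Metric.mem_ball, Real.dist_eq, abs_lt]; constructor <;> linarith)
    have hb' : s + δ / 2 ∈ J := hb (by rw [Metric.mem_ball, Real.dist_eq, abs_lt]; constructor <;> linarith)
    have hsub : Icc (s - δ / 2) (s + δ / 2) ⊆ J := hJ'.out ha hb'
    have h1 := intermediate_value_Ioo (by linarith : s - δ / 2 ≤ s + δ / 2) (hc.mono hsub)
    have h2 : Ioo (θ (s - δ / 2)) (θ (s + δ / 2)) ⊆ θ '' J :=
      h1.trans (image_mono (Ioo_subset_Icc_self.trans hsub))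
    refine mem_of_superset (isOpen_Ioo.mem_nhds ⟨?_, ?_⟩) h2
    · exact hmono ha hs (by linarith)
    · exact hmono hs hb' (by linarith)
  have hpre : IsPreconnected (θ '' J) := hJ'.isPreconnected.image _ hc
  refine ⟨hopen, hpre, Function.invFunOn θ J, fun s hs => ?_, fun t ht => ?_⟩
  · exact hmono.injOn (Function.invFunOn_mem ⟨s, hs, rfl⟩) hs (Function.invFunOn_eq ⟨s, hs, rfl⟩)
  · have hm : ∀ r ∈ θ '' J, Function.invFunOn θ J r ∈ J := fun r hr =>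
      Function.invFunOn_mem (by obtain ⟨s, hs, rfl⟩ := hr; exact ⟨s, hs, rfl⟩)
    have he : ∀ r ∈ θ '' J, θ (Function.invFunOn θ J r) = r := fun r hr =>
      Function.invFunOn_eq (by obtain ⟨s, hs, rfl⟩ := hr; exact ⟨s, hs, rfl⟩)
    refine ⟨hm t ht, he t ht, ?_⟩
    have hmono' : StrictMonoOn (Function.invFunOn θ J) (θ '' J) := by
      intro r hr r' hr' hrr
      by_contra hcon
      rw [not_lt] at hcon
      have h1 := hmono.monotoneOn (hm r' hr') (hm r hr) hcon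
      rw [he r hr, he r' hr'] at h1
      linarith
    have himg : Function.invFunOn θ J '' (θ '' J) ∈ 𝓝 (Function.invFunOn θ J t) := by
      refine mem_of_superset (hJ.mem_nhds (hm t ht)) fun s hs => ⟨θ s, ⟨s, hs, rfl⟩, ?_⟩
      exact hmono.injOn (hm _ ⟨s, hs, rfl⟩) hs (he _ ⟨s, hs, rfl⟩)
    have hcont : ContinuousAt (Function.invFunOn θ J) t :=
      hmono'.continuousAt_of_image_mem_nhds (hopen.mem_nhds ht) himg
    refine HasDerivAt.of_local_left_inverse hcont (hθ _ (hm t ht)) (hσ _ (hm t ht)).ne' ?_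
    filter_upwards [hopen.mem_nhds ht] with r hr using he r hr

end Time

/-! ### reparametrised geodesics -/

section Pre

variable {E : Type} [NormedAddCommGroup E] [NormedSpace ℝ E] [FiniteDimensional ℝ E]
variable {M : Type} [TopologicalSpace M] [ChartedSpace E M]
variable {g : Metric E M} {c γ : ℝ → M} {κ : ℝ → ℝ} {J : Set ℝ} {s₀ s σ₀ : ℝ}

/-- `∇_{c'} c' = κ c'` on the set of times `J` -/
structure IsPre (g : Metric E M) (c : ℝ → M) (κ : ℝ → ℝ) (J : Set ℝ) : Prop where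
  cont : ContinuousOn c J
  kcont : ContinuousOn κ J
  eqn : ∀ a, ∀ s ∈ J, c s ∈ (chartAt E a).source →
    DifferentiableAt ℝ (cc (E := E) c a) s ∧
    HasDerivAt (deriv (cc (E := E) c a))
      (- chris (g.coef a) (cc c a s) (deriv (cc c a) s) (deriv (cc c a) s)
        + κ s • deriv (cc (E := E) c a) s) s

theorem IsPre.mono {J' : Set ℝ} (h : IsPre g c κ J) (hs : J' ⊆ J) : IsPre g c κ J' :=
  ⟨h.cont.mono hs, h.kcont.mono hs, fun a s hs' ha => h.eqn a s (hs hs') ha⟩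

/-- in the new time the curve is a geodesic -/
theorem IsPre.isGeodesicOn (h : IsPre g c κ J) (hJ : IsOpen J) {σ ρ : ℝ → ℝ} {I : Set ℝ}
    (hI : IsOpen I)
    (hσ : ∀ s ∈ J, HasDerivAt σ (κ s * σ s) s) (hσ0 : ∀ s ∈ J, σ s ≠ 0)
    (hρ : ∀ t ∈ I, ρ t ∈ J ∧ HasDerivAt ρ (σ (ρ t))⁻¹ t) :
    IsGeodesicOn g (fun t => c (ρ t)) I ∧ ∀ a, ∀ t ∈ I, c (ρ t) ∈ (chartAt E a).source →
      HasDerivAt (cc (E := E) (fun t => c (ρ t)) a)
        ((σ (ρ t))⁻¹ • deriv (cc (E := E) c a) (ρ t)) t := by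
  have hρc : ∀ t ∈ I, ContinuousAt ρ t := fun t ht => (hρ t ht).2.continuousAt
  have hcc : ∀ t ∈ I, ContinuousAt (fun t => c (ρ t)) t := fun t ht =>
    ContinuousAt.comp (g := c) (h.cont.continuousAt (hJ.mem_nhds (hρ t ht).1)) (hρc t ht)
  have hder : ∀ a, ∀ t ∈ I, c (ρ t) ∈ (chartAt E a).source →
      HasDerivAt (cc (E := E) (fun t => c (ρ t)) a)
        ((σ (ρ t))⁻¹ • deriv (cc (E := E) c a) (ρ t)) t := fun a t ht ha =>
    HasDerivAt.scomp t (h.eqn a _ (hρ t ht).1 ha).1.hasDerivAt (hρ t ht).2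
  refine ⟨⟨fun t ht => (hcc t ht).continuousWithinAt, fun a t ht ha => ?_⟩, hder⟩
  have hev : ∀ᶠ r in 𝓝 t, r ∈ I ∧ c (ρ r) ∈ (chartAt E a).source :=
    (show ∀ᶠ r in 𝓝 t, r ∈ I from hI.mem_nhds ht).and (eventually_source (hcc t ht) ha)
  have h1 : deriv (cc (E := E) (fun t => c (ρ t)) a) =ᶠ[𝓝 t]
      fun r => (σ (ρ r))⁻¹ • deriv (cc (E := E) c a) (ρ r) := by
    filter_upwards [hev] with r hr
    exact (hder a r hr.1 hr.2).deriv
  obtain ⟨hρt, hρd⟩ := hρ t ht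
  obtain ⟨e1, e2⟩ := h.eqn a _ hρt ha
  have h2 : HasDerivAt (fun r => σ (ρ r)) (κ (ρ t)) t := by
    have := (hσ _ hρt).comp t hρd
    refine this.congr_deriv ?_
    rw [mul_assoc, mul_inv_cancel₀ (hσ0 _ hρt), mul_one]
  have h3 := (h2.inv (hσ0 _ hρt)).smul (HasDerivAt.scomp t e2 hρd)
  have h4 := h3.congr_of_eventuallyEq h1
  refine ⟨(hder a t ht ha).differentiableAt, h4.differentiableAt, ?_⟩
  rw [h4.deriv, (hder a t ht ha).deriv, chris_smul_left, chris_smul_right]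
  change _ = -((σ (ρ t))⁻¹ • (σ (ρ t))⁻¹ • chris (g.coef a) (cc c a (ρ t)) _ _)
  have h5 := hσ0 _ hρt
  simp only [smul_add, smul_neg, smul_smul, Pi.inv_apply, Function.comp_apply, Function.comp_def]
  rw [add_assoc, ← add_smul]
  have h6 : (σ (ρ t))⁻¹ * ((σ (ρ t))⁻¹ * κ (ρ t)) + -κ (ρ t) / σ (ρ t) ^ 2 = 0 := by
    field_simp
    ring
  rw [h6, zero_smul, add_zero]

/-- a reparametrised geodesic is a geodesic up to the change of time `th κ s₀ σ₀` -/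
theorem IsPre.eq_geodesic [T2Space M] (h : IsPre g c κ J) (hJ : IsOpen J) (hJ' : J.OrdConnected)
    (hs₀ : s₀ ∈ J) (hγ : IsGeodesic g γ) (h0 : γ 0 = c s₀) (hσ₀ : 0 < σ₀) {a : M}
    (ha : c s₀ ∈ (chartAt E a).source)
    (hv : deriv (cc (E := E) c a) s₀ = σ₀ • deriv (cc (E := E) γ a) 0) (hs : s ∈ J) :
    c s = γ (th κ s₀ σ₀ s) ∧ ∀ b, c s ∈ (chartAt E b).source →
      deriv (cc (E := E) c b) s = sg κ s₀ σ₀ s • deriv (cc (E := E) γ b) (th κ s₀ σ₀ s) := by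
  obtain ⟨hI, hpre, ρ, hρ1, hρ2⟩ := exists_inverse (σ := sg κ s₀ σ₀) (θ := th κ s₀ σ₀) hJ hJ'
    (fun s hs => hasDerivAt_th hJ hJ' h.kcont hs₀ σ₀ hs) (fun s _ => sg_pos hσ₀ s)
  obtain ⟨hg, hd⟩ := h.isGeodesicOn hJ (σ := sg κ s₀ σ₀) (ρ := ρ) hI
    (fun s hs => hasDerivAt_sg hJ hJ' h.kcont hs₀ σ₀ hs) (fun s _ => (sg_pos hσ₀ s).ne')
    (fun t ht => ⟨(hρ2 t ht).1, (hρ2 t ht).2.2⟩)
  have h0I : (0 : ℝ) ∈ th κ s₀ σ₀ '' J := ⟨s₀, hs₀, th_self κ s₀ σ₀⟩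
  have hρ0 : ρ 0 = s₀ := by
    have := hρ1 s₀ hs₀
    rwa [th_self] at this
  have h0a : (fun t => c (ρ t)) 0 ∈ (chartAt E a).source := by
    simp only [hρ0]
    exact ha
  have hvel : deriv (cc (E := E) (fun t => c (ρ t)) a) 0 = deriv (cc (E := E) γ a) 0 := by
    rw [(hd a 0 h0I h0a).deriv, hρ0, hv, sg_self, smul_smul, inv_mul_cancel₀ hσ₀.ne', one_smul]
  have heq : EqOn (fun t => c (ρ t)) γ (th κ s₀ σ₀ '' J) :=
    hg.eqOn_of (hγ.mono (subset_univ _)) hI hpre h0I (by simp only [hρ0]; exact h0.symm) h0a hvel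
  have hall : ∀ r ∈ J, c r = γ (th κ s₀ σ₀ r) := fun r hr => by
    have h1 := heq (mem_image_of_mem _ hr)
    simp only [hρ1 r hr] at h1
    exact h1
  refine ⟨hall s hs, fun b hb => ?_⟩
  have hb' : γ (th κ s₀ σ₀ s) ∈ (chartAt E b).source := by rwa [← hall s hs]
  have h1 : cc (E := E) c b =ᶠ[𝓝 s] fun r => cc (E := E) γ b (th κ s₀ σ₀ r) := by
    filter_upwards [hJ.mem_nhds hs] with r hr
    simp only [cc, hall r hr]
  have h2 : HasDerivAt (fun r => cc (E := E) γ b (th κ s₀ σ₀ r))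
      (sg κ s₀ σ₀ s • deriv (cc (E := E) γ b) (th κ s₀ σ₀ s)) s :=
    HasDerivAt.scomp s (hγ.eqn b _ (mem_univ _) hb').1.hasDerivAt
      (hasDerivAt_th hJ hJ' h.kcont hs₀ σ₀ hs)
  exact (h2.congr_of_eventuallyEq h1).deriv

/-! ### the version with an end point -/

theorem IsPre.congr_kappa {κ' : ℝ → ℝ} (h : IsPre g c κ J) (hk : EqOn κ' κ J) :
    IsPre g c κ' J :=
  ⟨h.cont, h.kcont.congr hk, fun a s hs ha => by rw [hk hs]; exact h.eqn a s hs ha⟩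

theorem sg_mul (hκ : Continuous κ) (s₀ s₁ σ₀ : ℝ) (r : ℝ) :
    sg κ s₁ 1 r * σ₀ = sg κ s₁ 1 s₀ * sg κ s₀ σ₀ r := by
  have h1 : (∫ x in s₁..r, κ x) = (∫ x in s₁..s₀, κ x) + ∫ x in s₀..r, κ x :=
    (intervalIntegral.integral_add_adjacent_intervals (hκ.intervalIntegrable _ _)
      (hκ.intervalIntegrable _ _)).symm
  unfold sg
  rw [h1, Real.exp_add]
  ring

theorem continuous_sg (hκ : Continuous κ) (s₀ σ₀ : ℝ) : Continuous (sg κ s₀ σ₀) :=
  continuous_iff_continuousAt.2 fun s =>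
    (hasDerivAt_sg isOpen_univ ordConnected_univ hκ.continuousOn (mem_univ s₀) σ₀
      (mem_univ s)).continuousAt

theorem hasDerivAt_th' (hκ : Continuous κ) (s₀ σ₀ s : ℝ) :
    HasDerivAt (th κ s₀ σ₀) (sg κ s₀ σ₀ s) s :=
  hasDerivAt_th isOpen_univ ordConnected_univ hκ.continuousOn (mem_univ s₀) σ₀ (mem_univ s)

theorem th_sub (hκ : Continuous κ) (s₀ s₁ : ℝ) {σ₀ : ℝ} (hσ₀ : 0 < σ₀) (s : ℝ) :
    sg κ s₁ 1 s₀ / σ₀ * th κ s₀ σ₀ s + th κ s₁ 1 s₀ = th κ s₁ 1 s := by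
  have hc := continuous_sg hκ s₁ 1
  have h1 : th κ s₁ 1 s = th κ s₁ 1 s₀ + ∫ r in s₀..s, sg κ s₁ 1 r :=
    (intervalIntegral.integral_add_adjacent_intervals (hc.intervalIntegrable _ _)
      (hc.intervalIntegrable _ _)).symm
  have h2 : (∫ r in s₀..s, sg κ s₁ 1 r) = sg κ s₁ 1 s₀ / σ₀ * th κ s₀ σ₀ s := by
    unfold th
    rw [← intervalIntegral.integral_const_mul]
    refine intervalIntegral.integral_congr fun r _ => ?_
    have h3 := sg_mul hκ s₀ s₁ σ₀ r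
    change sg κ s₁ 1 r = sg κ s₁ 1 s₀ / σ₀ * sg κ s₀ σ₀ r
    rw [div_mul_eq_mul_div, eq_div_iff hσ₀.ne', h3]
  rw [h1, h2, add_comm]

theorem hasDerivAt_cc_comp (hγ : IsGeodesic g γ) {θ : ℝ → ℝ} {θ' : ℝ} (hθ : HasDerivAt θ θ' s)
    {b : M} (hb : γ (θ s) ∈ (chartAt E b).source) :
    HasDerivAt (fun r => cc (E := E) γ b (θ r)) (θ' • deriv (cc (E := E) γ b) (θ s)) s :=
  HasDerivAt.scomp s (hγ.eqn b _ (mem_univ _) hb).1.hasDerivAt hθ

/-- a reparametrised geodesic on `]-∞, s₀]`, with given velocity at the end point -/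
theorem IsPre.eq_geodesic_left [T2Space M] {e : M → E → M} (he : IsExp g e)
    (h : IsPre g c κ (Iio s₀)) (hc : ContinuousOn c (Iic s₀)) (hκ : ContinuousOn κ (Iic s₀))
    (hγ : IsGeodesic g γ) (h0 : γ 0 = c s₀) (hσ₀ : 0 < σ₀) {a : M}
    (ha : c s₀ ∈ (chartAt E a).source)
    (hv : HasDerivWithinAt (cc (E := E) c a) (σ₀ • deriv (cc (E := E) γ a) 0) (Iic s₀) s₀) :
    ∃ κ' : ℝ → ℝ, Continuous κ' ∧ EqOn κ' κ (Iic s₀) ∧
      (∀ s, HasDerivAt (th κ' s₀ σ₀) (sg κ' s₀ σ₀ s) s) ∧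
      ∀ s ≤ s₀, c s = γ (th κ' s₀ σ₀ s) ∧ ∀ b, c s ∈ (chartAt E b).source →
        HasDerivWithinAt (cc (E := E) c b)
          (sg κ' s₀ σ₀ s • deriv (cc (E := E) γ b) (th κ' s₀ σ₀ s)) (Iic s₀) s := by
  set κ' : ℝ → ℝ := fun s => κ (min s s₀) with hκ'
  have hk1 : Continuous κ' := by
    refine continuous_iff_continuousAt.2 fun s => ?_
    have h1 : ContinuousOn (fun s : ℝ => κ (min s s₀)) univ :=
      hκ.comp (by fun_prop) fun s _ => min_le_right s s₀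
    exact h1.continuousAt univ_mem
  have hk2 : EqOn κ' κ (Iic s₀) := fun s hs => by
    simp only [hκ', min_eq_left (mem_Iic.1 hs)]
  refine ⟨κ', hk1, hk2, fun s => hasDerivAt_th' hk1 s₀ σ₀ s, ?_⟩
  set s₁ : ℝ := s₀ - 1 with hs₁
  have hs₁' : s₁ ∈ Iio s₀ := by
    rw [mem_Iio, hs₁]
    linarith
  set v : E := deriv (cc (E := E) c (c s₁)) s₁ with hv1
  set γ₁ : ℝ → M := fun t => e (c s₁) (t • v) with hγ₁
  have hg1 : IsGeodesic g γ₁ := he.geod (c s₁) v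
  have hg10 : γ₁ 0 = c s₁ := by
    simp only [hγ₁, zero_smul]
    exact he.zero _
  have hd1 : deriv (cc (E := E) γ₁ (c s₁)) 0 = v := (he.init (c s₁) v).deriv
  have key1 : ∀ s < s₀, c s = γ₁ (th κ' s₁ 1 s) := fun s hs =>
    ((h.congr_kappa (hk2.mono Iio_subset_Iic_self)).eq_geodesic isOpen_Iio ordConnected_Iio hs₁'
      hg1 hg10 one_pos (mem_chart_source E (c s₁)) (by rw [hd1, one_smul]) hs).1
  have hγc : ∀ t, ContinuousAt γ₁ t := fun t => hg1.contAt isOpen_univ (mem_univ t)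
  have hcompc : ∀ s, ContinuousAt (fun s => γ₁ (th κ' s₁ 1 s)) s := fun s =>
    ContinuousAt.comp (g := γ₁) (hγc _) (hasDerivAt_th' hk1 s₁ 1 s).continuousAt
  have key1' : c s₀ = γ₁ (th κ' s₁ 1 s₀) := by
    have t1 : Tendsto c (𝓝[<] s₀) (𝓝 (c s₀)) :=
      (hc s₀ (mem_Iic.2 le_rfl)).mono_left (nhdsWithin_mono _ Iio_subset_Iic_self)
    have t2 : Tendsto c (𝓝[<] s₀) (𝓝 (γ₁ (th κ' s₁ 1 s₀))) := by
      refine ((hcompc s₀).tendsto.mono_left nhdsWithin_le_nhds).congr' ?_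
      filter_upwards [self_mem_nhdsWithin] with s hs using (key1 s hs).symm
    exact tendsto_nhds_unique t1 t2
  have key2 : ∀ s ≤ s₀, c s = γ₁ (th κ' s₁ 1 s) := fun s hs => by
    rcases hs.lt_or_eq with hs | rfl
    · exact key1 s hs
    · exact key1'
  set T : ℝ := th κ' s₁ 1 s₀ with hT
  set S : ℝ := sg κ' s₁ 1 s₀ with hS
  have hS0 : 0 < S := sg_pos one_pos s₀
  have hvel : S • deriv (cc (E := E) γ₁ a) T = σ₀ • deriv (cc (E := E) γ a) 0 := by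
    have h1 := hasDerivAt_cc_comp hg1 (hasDerivAt_th' hk1 s₁ 1 s₀) (b := a)
      (by rw [← key1']; exact ha)
    have h2 : HasDerivWithinAt (cc (E := E) c a) (S • deriv (cc (E := E) γ₁ a) T) (Iic s₀) s₀ := by
      refine h1.hasDerivWithinAt.congr (fun s hs => ?_) ?_
      · simp only [cc, key2 s hs]
      · simp only [cc, key1']
        rfl
    exact (uniqueDiffWithinAt_Iic s₀).eq_deriv _ h2 hv
  have hγγ : ∀ t, γ t = γ₁ (S / σ₀ * t + T) := by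
    have hg2 : IsGeodesic g (fun t => γ₁ (S / σ₀ * t + T)) :=
      (IsGeodesicOn.comp_affine hg1 isOpen_univ (S / σ₀) T).mono fun t _ => mem_univ _
    have h1 : (fun t => γ₁ (S / σ₀ * t + T)) 0 = c s₀ := by
      simp only [mul_zero, zero_add]
      exact key1'.symm
    have h2 : HasDerivAt (cc (E := E) (fun t => γ₁ (S / σ₀ * t + T)) a)
        ((S / σ₀) • deriv (cc (E := E) γ₁ a) T) 0 := by
      have h3 : HasDerivAt (fun t : ℝ => S / σ₀ * t + T) (S / σ₀) 0 := by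
        simpa using ((hasDerivAt_id (0 : ℝ)).const_mul (S / σ₀)).add_const T
      have h4 := hasDerivAt_cc_comp hg1 h3 (b := a) (by
        simp only [mul_zero, zero_add]
        rw [← key1']
        exact ha)
      simp only [mul_zero, zero_add] at h4
      exact h4
    have h5 : deriv (cc (E := E) γ a) 0 = deriv (cc (E := E) (fun t => γ₁ (S / σ₀ * t + T)) a) 0 := by
      rw [h2.deriv, div_eq_inv_mul, mul_smul, hvel, smul_smul, inv_mul_cancel₀ hσ₀.ne', one_smul]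
    exact fun t => hγ.eqOn_of hg2 isOpen_univ isPreconnected_univ (mem_univ 0) (h0.trans h1.symm)
      (by rw [h0]; exact ha) h5 (mem_univ t)
  have key3 : ∀ s ≤ s₀, c s = γ (th κ' s₀ σ₀ s) := fun s hs => by
    rw [key2 s hs, hγγ, hS, hT, th_sub hk1 s₀ s₁ hσ₀ s]
  refine fun s hs => ⟨key3 s hs, fun b hb => ?_⟩
  have h1 := hasDerivAt_cc_comp hγ (hasDerivAt_th' hk1 s₀ σ₀ s) (b := b)
    (by rw [← key3 s hs]; exact hb)
  refine h1.hasDerivWithinAt.congr (fun r hr => ?_) ?_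
  · simp only [cc, key3 r hr]
  · simp only [cc, key3 s hs]

end Pre

end Vale.Agent.P207.N3.H440
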